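import Mathlib

/-!
# A verified checker for Boolean gadgets given by an integer Fourier table

A multilinear polynomial `P = ∑ a_S χ_S` with integer coefficients in `k` sign variables is
stored as a sparse binary tree (`node p q = p + x₀ * q`).  The vector of all `2 ^ k` values is
packed into one big integer in base `2 ^ w`, using ring operations only, so that the check
"`P x = M` or `P x = -M` at every point" costs a few big-number operations.
-/

set_option autoImplicit false

namespace Crest.Agent.GSC

/-- sign of a Boolean, in `ℤ`. -/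
def sgz (b : Bool) : ℤ := if b then 1 else -1

inductive Tree where
  | zero : Tree
  | leaf (a : ℤ) : Tree
  | node (p q : Tree) : Tree

open Crest.Agent.GSC.Tree

/-- value of the polynomial at a point. -/
def evalT : (k : ℕ) → Tree → (Fin k → Bool) → ℤ
  | 0, leaf a, _ => a
  | k+1, node p q, x => evalT k p (Fin.tail x) + sgz (x 0) * evalT k q (Fin.tail x)
  | _, _, _ => 0

/-- `cons` for Boolean points. -/
def bc {k : ℕ} (b : Bool) (y : Fin k → Bool) : Fin (k+1) → Bool := Fin.cons b y

@[simp] lemma bc_zero {k : ℕ} (b : Bool) (y : Fin k → Bool) : bc b y 0 = b := rfl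
@[simp] lemma bc_succ {k : ℕ} (b : Bool) (y : Fin k → Bool) (i : Fin k) : bc b y i.succ = y i := rfl
@[simp] lemma tail_bc {k : ℕ} (b : Bool) (y : Fin k → Bool) : Fin.tail (bc b y) = y := rfl
lemma bc_self {k : ℕ} (x : Fin (k+1) → Bool) : bc (x 0) (Fin.tail x) = x := Fin.cons_self_tail x

/-- packed encoding (base `B`) of an integer function on the cube. -/
def encF (B : ℤ) : (k : ℕ) → ((Fin k → Bool) → ℤ) → ℤ
  | 0, P => P (fun i => i.elim0)
  | k+1, P => encF B k (fun y => P (bc true y)) + B ^ (2 ^ k) * encF B k (fun y => P (bc false y))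

lemma encF_add (B : ℤ) (k : ℕ) (P Q : (Fin k → Bool) → ℤ) :
    encF B k (fun x => P x + Q x) = encF B k P + encF B k Q := by
  induction k with
  | zero => rfl
  | succ k ih =>
    simp only [encF]
    rw [ih, ih]; ring

lemma encF_mul (B : ℤ) (k : ℕ) (c : ℤ) (P : (Fin k → Bool) → ℤ) :
    encF B k (fun x => c * P x) = c * encF B k P := by
  induction k with
  | zero => rfl
  | succ k ih =>
    simp only [encF]
    rw [ih, ih]; ring

lemma encF_zero (B : ℤ) (k : ℕ) : encF B k (fun _ => 0) = 0 := by
  induction k with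
  | zero => rfl
  | succ k ih => simp only [encF]; rw [ih]; ring

lemma encF_sub (B : ℤ) (k : ℕ) (P Q : (Fin k → Bool) → ℤ) :
    encF B k (fun x => P x - Q x) = encF B k P - encF B k Q := by
  have h : (fun x => P x - Q x) = fun x => P x + (-1) * Q x := by
    funext x; ring
  rw [h, encF_add, encF_mul]; ring

/-- `2 ^ (w * 2 ^ k)`, the weight of the top half. -/
def pw (w : ℕ) : ℕ → ℕ
  | 0 => 2 ^ w
  | k+1 => (pw w k) ^ 2

lemma pw_eq (w k : ℕ) : pw w k = 2 ^ (w * 2 ^ k) := by
  induction k with
  | zero => simp [pw]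
  | succ k ih =>
    simp only [pw]
    rw [ih, ← pow_mul]; congr 1; ring

lemma pw_cast (w k : ℕ) : ((pw w k : ℕ) : ℤ) = ((2 : ℤ) ^ w) ^ (2 ^ k) := by
  rw [pw_eq]; push_cast; rw [pow_mul]

lemma pw_succ (w k : ℕ) : pw w (k+1) = pw w k * pw w k := by
  simp only [pw]; ring

/-- the packed vector of values, computed by ring operations. -/
def enc (w : ℕ) : ℕ → Tree → ℤ
  | 0, leaf a => a
  | k+1, node p q => (enc w k p + enc w k q) + (pw w k : ℤ) * (enc w k p - enc w k q)
  | _, _ => 0

lemma enc_eq (w : ℕ) (k : ℕ) (t : Tree) : enc w k t = encF ((2 : ℤ) ^ w) k (evalT k t) := by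
  induction k generalizing t with
  | zero =>
    cases t with
    | zero => rfl
    | leaf a => rfl
    | node p q => rfl
  | succ k ih =>
    cases t with
    | zero =>
      have : evalT (k+1) zero = fun _ => 0 := by funext x; rfl
      rw [this, encF_zero]; rfl
    | leaf a =>
      have : evalT (k+1) (leaf a) = fun _ => 0 := by funext x; rfl
      rw [this, encF_zero]; rfl
    | node p q =>
      have h1 : (fun y => evalT (k+1) (node p q) (bc true y))
          = fun y => evalT k p y + evalT k q y := by
        funext y; simp [evalT, sgz]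
      have h2 : (fun y => evalT (k+1) (node p q) (bc false y))
          = fun y => evalT k p y - evalT k q y := by
        funext y; simp [evalT, sgz]; ring
      simp only [enc, encF]
      rw [h1, h2, encF_add, encF_sub, ← ih, ← ih, pw_cast]

/-- the packed all-ones vector. -/
def ones (w : ℕ) : ℕ → ℕ
  | 0 => 1
  | k+1 => ones w k + pw w k * ones w k

lemma ones_eq (w k : ℕ) : ((ones w k : ℕ) : ℤ) = encF ((2 : ℤ) ^ w) k (fun _ => 1) := by
  induction k with
  | zero => rfl
  | succ k ih =>
    simp only [ones, encF]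
    push_cast
    rw [ih, pw_cast]

lemma ones_lt (w k : ℕ) (hw : 1 ≤ w) : ones w k < pw w k := by
  induction k with
  | zero =>
    simp only [ones, pw]
    exact Nat.one_lt_two_pow (by omega)
  | succ k ih =>
    rw [pw_succ]
    simp only [ones]
    nlinarith

/-- a number below the mask `ones` is a packed 0/1 vector. -/
lemma bin_of_land (w : ℕ) (hw : 1 ≤ w) (k : ℕ) (F : ℕ) (h : F &&& ones w k = F) :
    ∃ b : (Fin k → Bool) → Bool, (F : ℤ) = encF ((2 : ℤ) ^ w) k (fun x => if b x then 1 else 0) := by
  induction k generalizing F with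
  | zero =>
    simp only [ones, Nat.and_one_is_mod] at h
    have h2 : F < 2 := by omega
    interval_cases F
    · exact ⟨fun _ => false, by simp [encF]⟩
    · exact ⟨fun _ => true, by simp [encF]⟩
  | succ k ih =>
    have hlt := ones_lt w k hw
    have hpos : 0 < pw w k := by rw [pw_eq]; positivity
    have hmod : ones w (k+1) % pw w k = ones w k := by
      simp only [ones]
      rw [Nat.add_mul_mod_self_left, Nat.mod_eq_of_lt hlt]
    have hdiv : ones w (k+1) / pw w k = ones w k := by
      simp only [ones]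
      rw [Nat.add_mul_div_left _ _ hpos, Nat.div_eq_of_lt hlt, zero_add]
    have hlo : (F % pw w k) &&& ones w k = F % pw w k := by
      have : (F &&& ones w (k+1)) % pw w k = F % pw w k := by rw [h]
      rw [pw_eq] at this hmod ⊢
      rw [Nat.and_mod_two_pow, hmod] at this
      exact this
    have hhi : (F / pw w k) &&& ones w k = F / pw w k := by
      have : (F &&& ones w (k+1)) / pw w k = F / pw w k := by rw [h]
      rw [pw_eq] at this hdiv ⊢
      rw [Nat.and_div_two_pow, hdiv] at this
      exact this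
    obtain ⟨b0, hb0⟩ := ih _ hlo
    obtain ⟨b1, hb1⟩ := ih _ hhi
    refine ⟨fun x => if x 0 then b0 (Fin.tail x) else b1 (Fin.tail x), ?_⟩
    simp only [encF, bc_zero, tail_bc, if_true, Bool.false_eq_true, if_false]
    rw [← hb0, ← hb1, ← pw_cast]
    have := Nat.mod_add_div F (pw w k)
    exact_mod_cast this.symm

/-- digits are unique. -/
lemma encF_bound (B : ℤ) (hB : 1 ≤ B) (k : ℕ) (c : (Fin k → Bool) → ℤ) (hc : ∀ x, |c x| ≤ B - 1) :
    |encF B k c| ≤ B ^ (2 ^ k) - 1 := by
  induction k with
  | zero => simpa [encF] using hc _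
  | succ k ih =>
    simp only [encF]
    have h0 := ih (fun y => c (bc true y)) (fun y => hc _)
    have h1 := ih (fun y => c (bc false y)) (fun y => hc _)
    have hp : (1 : ℤ) ≤ B ^ (2 ^ k) := one_le_pow₀ hB
    have e : B ^ (2 ^ (k+1)) = B ^ (2 ^ k) * B ^ (2 ^ k) := by
      rw [← pow_add]; congr 1; ring
    rw [e]
    calc |encF B k (fun y => c (bc true y)) + B ^ (2 ^ k) * encF B k (fun y => c (bc false y))|
        ≤ |encF B k (fun y => c (bc true y))| + |B ^ (2 ^ k) * encF B k (fun y => c (bc false y))| :=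
          abs_add_le _ _
      _ = |encF B k (fun y => c (bc true y))| + B ^ (2 ^ k) * |encF B k (fun y => c (bc false y))| := by
          rw [abs_mul, abs_of_nonneg (by linarith : (0:ℤ) ≤ B ^ (2 ^ k))]
      _ ≤ (B ^ (2 ^ k) - 1) + B ^ (2 ^ k) * (B ^ (2 ^ k) - 1) := by
          have := mul_le_mul_of_nonneg_left h1 (by linarith : (0:ℤ) ≤ B ^ (2 ^ k))
          linarith
      _ = B ^ (2 ^ k) * B ^ (2 ^ k) - 1 := by ring

lemma encF_inj (B : ℤ) (hB : 1 ≤ B) (k : ℕ) (c : (Fin k → Bool) → ℤ) (hc : ∀ x, |c x| ≤ B - 1)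
    (h : encF B k c = 0) : ∀ x, c x = 0 := by
  induction k with
  | zero =>
    intro x
    have : x = fun i => i.elim0 := Subsingleton.elim _ _
    rw [this]; exact h
  | succ k ih =>
    simp only [encF] at h
    have hb0 := encF_bound B hB k (fun y => c (bc true y)) (fun y => hc _)
    have hp : (1 : ℤ) ≤ B ^ (2 ^ k) := one_le_pow₀ hB
    have hdvd : B ^ (2 ^ k) ∣ encF B k (fun y => c (bc true y)) :=
      ⟨- encF B k (fun y => c (bc false y)), by linarith⟩
    have hlo : encF B k (fun y => c (bc true y)) = 0 :=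
      Int.eq_zero_of_abs_lt_dvd hdvd (by linarith)
    have hhi : encF B k (fun y => c (bc false y)) = 0 := by
      rw [hlo, zero_add] at h
      rcases mul_eq_zero.mp h with h | h
      · linarith
      · exact h
    intro x
    rw [← bc_self x]
    cases x 0 with
    | true => exact ih (fun y => c (bc true y)) (fun y => hc _) hlo _
    | false => exact ih (fun y => c (bc false y)) (fun y => hc _) hhi _

/-- `ℓ¹` norm of the coefficient table. -/
def l1 : Tree → ℕ
  | zero => 0
  | leaf a => a.natAbs
  | node p q => l1 p + l1 q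

lemma abs_evalT_le (k : ℕ) (t : Tree) (x : Fin k → Bool) : |evalT k t x| ≤ (l1 t : ℤ) := by
  induction t generalizing k with
  | zero => cases k <;> simp [evalT, l1]
  | leaf a => cases k <;> simp [evalT, l1]
  | node p q ihp ihq =>
    cases k with
    | zero => simp [evalT, l1]; positivity
    | succ k =>
      simp only [evalT, l1]
      have h1 := ihp k (Fin.tail x)
      have h2 := ihq k (Fin.tail x)
      have h3 : |sgz (x 0) * evalT k q (Fin.tail x)| = |evalT k q (Fin.tail x)| := by
        unfold sgz; split_ifs <;> simp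
      have := abs_add_le (evalT k p (Fin.tail x)) (sgz (x 0) * evalT k q (Fin.tail x))
      push_cast
      linarith

/-- the value check. -/
def checkPM (n w M : ℕ) (t : Tree) : Bool :=
  decide (1 ≤ w) && decide (l1 t + M < 2 ^ w) &&
  decide ((((enc w n t + (M : ℤ) * (ones w n : ℤ)) / (2 * (M : ℤ))).toNat &&& ones w n)
      = ((enc w n t + (M : ℤ) * (ones w n : ℤ)) / (2 * (M : ℤ))).toNat) &&
  decide (enc w n t + (M : ℤ) * (ones w n : ℤ)
      = 2 * (M : ℤ) * ((((enc w n t + (M : ℤ) * (ones w n : ℤ)) / (2 * (M : ℤ))).toNat : ℕ) : ℤ))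

theorem pm_of_checkPM (n w M : ℕ) (t : Tree) (h : checkPM n w M t = true) (x : Fin n → Bool) :
    evalT n t x = M ∨ evalT n t x = -M := by
  unfold checkPM at h
  simp only [Bool.and_eq_true, decide_eq_true_eq] at h
  obtain ⟨⟨⟨hw, hl⟩, hF⟩, hE⟩ := h
  set F := ((enc w n t + (M : ℤ) * (ones w n : ℤ)) / (2 * (M : ℤ))).toNat with hFdef
  obtain ⟨b, hb⟩ := bin_of_land w hw n F hF
  have hB : (1 : ℤ) ≤ (2 : ℤ) ^ w := one_le_pow₀ (by norm_num)
  have hl' : (l1 t : ℤ) + M < (2 : ℤ) ^ w := by exact_mod_cast hl
  have key : encF ((2 : ℤ) ^ w) n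
      (fun x => (evalT n t x + (M : ℤ) * 1) - (2 * (M : ℤ)) * (if b x then 1 else 0)) = 0 := by
    rw [encF_sub, encF_add, encF_mul, encF_mul, ← hb, ← ones_eq, ← enc_eq, hE]; ring
  have hz := encF_inj _ hB n _ (fun x => by
    have h1 := abs_evalT_le n t x
    rw [abs_le] at h1 ⊢
    have hM : (0 : ℤ) ≤ M := Int.natCast_nonneg M
    split_ifs <;> constructor <;> linarith [h1.1, h1.2]) key x
  split_ifs at hz
  · left; linarith
  · right; linarith

end Crest.Agent.GSC
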