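import Crest.Agent.GSC.Check

/-!
# Fourier coefficients of a polynomial given as a tree, and the final interface
-/

set_option autoImplicit false

namespace Crest.Agent.GSC

open Crest.Agent.GSC.Tree

/-- character indexed by an indicator function. -/
def chi (k : ℕ) (S : Fin k → Bool) (x : Fin k → Bool) : ℤ :=
  ∏ i : Fin k, (if S i then sgz (x i) else 1)

/-- number of elements of an indicator function. -/
def cnt (k : ℕ) (S : Fin k → Bool) : ℕ := ∑ i : Fin k, (if S i then 1 else 0)

lemma chi_bc (k : ℕ) (S : Fin (k+1) → Bool) (b : Bool) (y : Fin k → Bool) :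
    chi (k+1) S (bc b y) = (if S 0 then sgz b else 1) * chi k (Fin.tail S) y := by
  unfold chi
  rw [Fin.prod_univ_succ]
  rfl

lemma cnt_succ (k : ℕ) (S : Fin (k+1) → Bool) :
    cnt (k+1) S = (if S 0 then 1 else 0) + cnt k (Fin.tail S) := by
  unfold cnt
  rw [Fin.sum_univ_succ]
  rfl

lemma sum_bc {k : ℕ} (g : (Fin (k+1) → Bool) → ℤ) :
    ∑ x, g x = ∑ y, g (bc true y) + ∑ y, g (bc false y) := by
  rw [← (Fin.consEquiv (fun _ => Bool)).sum_comp, Fintype.sum_prod_type, Fintype.sum_bool]
  rfl

/-- coefficient of the tree polynomial. -/
def coefT : (k : ℕ) → Tree → (Fin k → Bool) → ℤ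
  | 0, leaf a, _ => a
  | k+1, node p q, S => if S 0 then coefT k q (Fin.tail S) else coefT k p (Fin.tail S)
  | _, _, _ => 0

lemma sum_evalT_chi (k : ℕ) (t : Tree) (S : Fin k → Bool) :
    ∑ x, evalT k t x * chi k S x = 2 ^ k * coefT k t S := by
  induction k generalizing t with
  | zero =>
    cases t with
    | zero => simp [evalT, coefT]
    | leaf a => simp [evalT, coefT, chi]
    | node p q => simp [evalT, coefT]
  | succ k ih =>
    cases t with
    | zero => simp [evalT, coefT]
    | leaf a => simp [evalT, coefT]
    | node p q =>
      rw [sum_bc, ← Finset.sum_add_distrib]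
      simp only [evalT, chi_bc, bc_zero, tail_bc, coefT]
      cases hS : S 0 with
      | true =>
        have : ∀ y : Fin k → Bool,
            (evalT k p y + sgz true * evalT k q y) * ((if true = true then sgz true else 1) * chi k (Fin.tail S) y)
            + (evalT k p y + sgz false * evalT k q y) * ((if true = true then sgz false else 1) * chi k (Fin.tail S) y)
            = 2 * (evalT k q y * chi k (Fin.tail S) y) := by
          intro y; simp [sgz]; ring
        rw [Finset.sum_congr rfl (fun y _ => this y), ← Finset.mul_sum, ih]
        simp; ring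
      | false =>
        have : ∀ y : Fin k → Bool,
            (evalT k p y + sgz true * evalT k q y) * ((if false = true then sgz true else 1) * chi k (Fin.tail S) y)
            + (evalT k p y + sgz false * evalT k q y) * ((if false = true then sgz false else 1) * chi k (Fin.tail S) y)
            = 2 * (evalT k p y * chi k (Fin.tail S) y) := by
          intro y; simp [sgz]; ring
        rw [Finset.sum_congr rfl (fun y _ => this y), ← Finset.mul_sum, ih]
        simp; ring

def isZ : Tree → Bool
  | zero => true
  | _ => false

/-- degree bound check. -/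
def degOK : Tree → ℕ → Bool
  | zero, _ => true
  | leaf _, _ => true
  | node p q, 0 => degOK p 0 && isZ q
  | node p q, d+1 => degOK p (d+1) && degOK q d

lemma coefT_zero (k : ℕ) (S : Fin k → Bool) : coefT k zero S = 0 := by
  cases k <;> rfl

lemma coefT_of_degOK (t : Tree) (d k : ℕ) (S : Fin k → Bool) (h : degOK t d = true)
    (hS : d < cnt k S) : coefT k t S = 0 := by
  induction t generalizing d k with
  | zero => exact coefT_zero k S
  | leaf a =>
    cases k with
    | zero => simp [cnt] at hS
    | succ k => rfl
  | node p q ihp ihq =>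
    cases k with
    | zero => rfl
    | succ k =>
      rw [cnt_succ] at hS
      simp only [coefT]
      cases d with
      | zero =>
        simp only [degOK, Bool.and_eq_true] at h
        cases hS0 : S 0 with
        | true =>
          have hq : q = zero := by
            cases q with
            | zero => rfl
            | leaf a => simp [isZ] at h
            | node a b => simp [isZ] at h
          simp [hq, coefT_zero]
        | false =>
          simp only [hS0] at hS
          simpa using ihp 0 k (Fin.tail S) h.1 (by simpa using hS)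
      | succ d =>
        simp only [degOK, Bool.and_eq_true] at h
        cases hS0 : S 0 with
        | true =>
          simp only [hS0] at hS
          simpa using ihq d k (Fin.tail S) h.2 (by simp at hS; omega)
        | false =>
          simp only [hS0] at hS
          simpa using ihp (d+1) k (Fin.tail S) h.1 (by simpa using hS)

/-- constant coefficient. -/
def c0 : ℕ → Tree → ℤ
  | 0, leaf a => a
  | k+1, node p _ => c0 k p
  | _, _ => 0

/-- sum of the linear coefficients. -/
def lin : ℕ → Tree → ℤ
  | k+1, node p q => c0 k q + lin k p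
  | _, _ => 0

lemma coefT_empty (k : ℕ) (t : Tree) : coefT k t (fun _ => false) = c0 k t := by
  induction k generalizing t with
  | zero => cases t <;> rfl
  | succ k ih =>
    cases t with
    | zero => rfl
    | leaf a => rfl
    | node p q =>
      simp only [coefT, c0]
      exact ih p

lemma sum_coefT_single (k : ℕ) (t : Tree) :
    ∑ i : Fin k, coefT k t (fun j => decide (j = i)) = lin k t := by
  induction k generalizing t with
  | zero => cases t <;> simp [lin]
  | succ k ih =>
    cases t with
    | zero => simp [lin, coefT]
    | leaf a => simp [lin, coefT]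
    | node p q =>
      rw [Fin.sum_univ_succ]
      simp only [coefT, lin]
      have h0 : (Fin.tail (fun j : Fin (k+1) => decide (j = 0))) = fun _ => false := by
        funext j; simp [Fin.tail, Fin.succ_ne_zero]
      have hs : ∀ i : Fin k, (Fin.tail (fun j : Fin (k+1) => decide (j = i.succ)))
          = fun j => decide (j = i) := by
        intro i; funext j; simp [Fin.tail]
      rw [h0, coefT_empty]
      simp only [hs, decide_true, if_true]
      have : ∀ i : Fin k, decide ((0 : Fin (k+1)) = i.succ) = false := by
        intro i; simp [(Fin.succ_ne_zero i).symm]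
      simp only [this, Bool.false_eq_true, if_false]
      rw [ih]

/-- the full check. -/
def check (n w M d : ℕ) (t : Tree) : Bool :=
  decide (0 < M) && checkPM n w M t && degOK t d && decide (c0 n t = 0)

/-- the Boolean function defined by the tree. -/
def fn (n : ℕ) (t : Tree) : (Fin n → Bool) → Bool := fun x => decide (0 < evalT n t x)

lemma sg_fn (n w M d : ℕ) (t : Tree) (h : check n w M d t = true) (x : Fin n → Bool) :
    (if fn n t x then (1 : ℝ) else -1) = (evalT n t x : ℝ) / M := by
  unfold check at h
  simp only [Bool.and_eq_true, decide_eq_true_eq] at h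
  obtain ⟨⟨⟨hM, hpm⟩, -⟩, -⟩ := h
  have hM' : (0 : ℝ) < M := by exact_mod_cast hM
  have hMz : (0 : ℤ) < M := by exact_mod_cast hM
  unfold fn
  rcases pm_of_checkPM n w M t hpm x with e | e
  · rw [e]; simp [hM, hM'.ne']
  · rw [e]
    have : ¬ (0 : ℤ) < -(M : ℤ) := by omega
    simp [hM'.ne', neg_div]

lemma prod_eq_chi (n : ℕ) (S : Finset (Fin n)) (x : Fin n → Bool) :
    ∏ i ∈ S, (if x i then (1 : ℝ) else -1) = (chi n (fun i => decide (i ∈ S)) x : ℝ) := by
  unfold chi sgz
  push_cast
  simp only [decide_eq_true_eq]
  rw [Finset.prod_ite_mem, Finset.univ_inter]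

lemma single_eq_chi (n : ℕ) (i : Fin n) (x : Fin n → Bool) :
    (if x i then (1 : ℝ) else -1) = (chi n (fun j => decide (j = i)) x : ℝ) := by
  unfold chi sgz
  push_cast
  simp only [decide_eq_true_eq]
  rw [Finset.prod_ite_eq']
  simp

lemma cnt_eq_card (n : ℕ) (S : Finset (Fin n)) : cnt n (fun i => decide (i ∈ S)) = S.card := by
  unfold cnt
  simp

lemma coef_fn (n w M d : ℕ) (t : Tree) (h : check n w M d t = true) (S : Fin n → Bool) :
    ∑ x : Fin n → Bool, ((if fn n t x then (1 : ℝ) else -1) * (chi n S x : ℝ))
      = 2 ^ n * (coefT n t S : ℝ) / M := by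
  have h1 : ∀ x : Fin n → Bool, ((if fn n t x then (1 : ℝ) else -1) * (chi n S x : ℝ))
      = ((evalT n t x * chi n S x : ℤ) : ℝ) / M := by
    intro x; rw [sg_fn n w M d t h x]; push_cast; ring
  rw [Finset.sum_congr rfl (fun x _ => h1 x), ← Finset.sum_div, ← Int.cast_sum, sum_evalT_chi]
  push_cast; ring

/-- **Interface.** A successful check gives a balanced Boolean function of degree at most `d`
whose normalised linear coefficients add up to `lin n t / M`. -/
theorem gadget_of_check (n w M d : ℕ) (t : Tree) (h : check n w M d t = true) :
    (∑ x : Fin n → Bool, (if fn n t x then (1 : ℝ) else -1) = 0) ∧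
    (∀ S : Finset (Fin n), d < S.card →
      ∑ x : Fin n → Bool, ((if fn n t x then (1 : ℝ) else -1)
        * ∏ i ∈ S, (if x i then (1 : ℝ) else -1)) = 0) ∧
    (∑ i : Fin n, (∑ x : Fin n → Bool, ((if fn n t x then (1 : ℝ) else -1)
        * (if x i then (1 : ℝ) else -1))) / 2 ^ n = (lin n t : ℝ) / M) := by
  have h' := h
  unfold check at h'
  simp only [Bool.and_eq_true, decide_eq_true_eq] at h'
  obtain ⟨⟨⟨hM, -⟩, hdeg⟩, hc0⟩ := h'
  refine ⟨?_, ?_, ?_⟩
  · have := coef_fn n w M d t h (fun _ => false)
    rw [coefT_empty, hc0] at this
    simpa [chi] using this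
  · intro S hS
    have := coef_fn n w M d t h (fun i => decide (i ∈ S))
    rw [coefT_of_degOK t d n _ hdeg (by rw [cnt_eq_card]; exact hS)] at this
    simp only [prod_eq_chi]
    simpa using this
  · have h2 : ∀ i : Fin n, (∑ x : Fin n → Bool, ((if fn n t x then (1 : ℝ) else -1)
        * (if x i then (1 : ℝ) else -1))) / 2 ^ n = (coefT n t (fun j => decide (j = i)) : ℝ) / M := by
      intro i
      simp only [single_eq_chi]
      rw [coef_fn n w M d t h]
      field_simp
    rw [Finset.sum_congr rfl (fun i _ => h2 i), ← Finset.sum_div, ← Int.cast_sum, sum_coefT_single]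

end Crest.Agent.GSC
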