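import Crest.Agent.GSC.Fourier
import Crest.Agent.GS.Main

/-!
# From a successful check to the statement of S0085

`s0085_of_check` combines the verified checker with the tower construction of `Crest.Agent.GS`:
all hypotheses are decidable statements about the explicit table `t`.
(No table satisfying them is known to us.)
-/

set_option autoImplicit false

namespace Crest.Agent.GSC

theorem s0085_of_check (n w M d : ℕ) (t : Tree) (h : check n w M d t = true) (hd : 1 ≤ d)
    (hpos : 0 < lin n t) (hineq : (d : ℤ) * (M : ℤ) ^ 2 < (lin n t) ^ 2) (C : ℝ) (hC : 0 < C) :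
    ∃ n : ℕ, ∃ f : (Fin n → Bool) → Bool, ∃ d : ℕ,
      (∃ x y, f x ≠ f y) ∧
      (∀ S : Finset (Fin n), d < S.card →
        ∑ x : Fin n → Bool, ((if f x then (1 : ℝ) else -1) *
          ∏ i ∈ S, (if x i then (1 : ℝ) else -1)) = 0) ∧
      C * Real.sqrt d <
        ∑ i : Fin n, (∑ x : Fin n → Bool, ((if f x then (1 : ℝ) else -1) *
          (if x i then (1 : ℝ) else -1))) / 2 ^ n := by
  obtain ⟨hbal, hdeg, hlin⟩ := gadget_of_check n w M d t h
  have hM : 0 < M := by
    unfold check at h
    simp only [Bool.and_eq_true, decide_eq_true_eq] at h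
    exact h.1.1.1
  have hM' : (0 : ℝ) < M := by exact_mod_cast hM
  have hpos' : (0 : ℝ) < (lin n t : ℝ) := by exact_mod_cast hpos
  have hineq' : (d : ℝ) * (M : ℝ) ^ 2 < (lin n t : ℝ) ^ 2 := by exact_mod_cast hineq
  refine Crest.Agent.GS.of_gadget_raw (fn n t) d hd hbal hdeg ?_ C hC
  rw [hlin, Real.sqrt_lt' (div_pos hpos' hM'), div_pow, lt_div_iff₀ (pow_pos hM' 2)]
  exact hineq'

end Crest.Agent.GSC
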